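import Vale.Agent.P299.H760.Hom.Rep
import Vale.Agent.P299.H882.Kp

/-!
# P299 / H760: the form `beP` of a family in `K'` is killed by the kernel of `Ric`
-/

set_option linter.all false

open Metric Filter Topology Set
open Vale.Agent.P272.K
open Vale.Agent.P299.D
open Vale.Agent.P299.H908
open scoped Manifold ContDiff ComplexOrder

noncomputable section

namespace Vale.Agent.P299.H760

/-- `∑ v_i ∂_i φ` is the derivative of the holomorphic function `φ` along `v` -/
lemma sum_dz_eq {n : ℕ} {φ : Cm n → ℂ} {z : Cm n} (hφ : DifferentiableAt ℂ φ z) (v : Cm n) :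
    ∑ i, v i * dz i φ z = fderiv ℂ φ z v := by
  have h1 : v = ∑ i, v i • (Pi.single i (1 : ℂ) : Cm n) := by
    funext k
    rw [Finset.sum_apply]
    simp [Pi.single_apply]
  conv_rhs => rw [h1]
  rw [map_sum]
  refine Finset.sum_congr rfl fun i _ => ?_
  rw [map_smul, smul_eq_mul, dz_of_holo hφ]

variable {n : ℕ} {X : Type} [TopologicalSpace X] [ChartedSpace (Cm n) X]
  [IsManifold 𝓘(ℂ, Cm n) ω X] [T2Space X] [CompactSpace X] [ConnectedSpace X]
  {w : Chart n X → Cm n → Matrix (Fin n) (Fin n) ℂ} {D : ProjData n X}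
  {r : ℕ} {h : Fin r → D.K}

/-- **the kernel condition** -/
theorem HomRep.ker (H : HomRep D h) (hw : IsKahler w) (hR : RicNonneg w)
    (hh : ∀ i, h i ∈ H212.kp D.K D.fm) {x : X} {e : Chart n X} (hx : At e x)
    (hxO : x ∈ H223.OmP D H.P)
    (hr : ∀ e' y, At e' y → (ric w e' (e' y)).rank ≤ (ric w e (e x)).rank)
    (u : Fin n → ℂ) (hu : (ric w e (e x)).mulVec u = 0) :
    (H223.beP D H.P e (e x)).mulVec u = 0 := by
  obtain ⟨k, hk⟩ := H.mem_OmP.1 hxO
  have hxa := H.aff_of_P hk
  have hc : Tendsto e.symm (𝓝 (e x)) (𝓝 x) := by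
    have := e.continuousAt_symm hx.mem_target
    rwa [ContinuousAt, hx.left_inv] at this
  have hnear : ∀ᶠ z in 𝓝 (e x), MvPolynomial.eval (D.Z (e.symm z)) (H.P k) ≠ 0 := by
    have h1 : ∀ᶠ y in 𝓝 x, D.ext (H.f k) y ≠ 0 :=
      (D.ext_holAt (H.f k) hxa).continuousAt.eventually_ne (H.P_ne_iff.1 hk).2
    filter_upwards [hc.eventually h1, hc.eventually (D.isOpen_aff.mem_nhds hxa)] with z h2 h3
    exact H.P_ne_iff.2 ⟨h3, h2⟩
  -- the conjugate vector
  have hherm : (ric w e (e x)).IsHermitian := (hR e x hx).1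
  have hv : ∀ j, ∑ i, (star u) i * ric w e (e x) i j = 0 := by
    intro j
    have h1 := congrFun hu j
    have h2 := congrArg star h1
    simp only [Matrix.mulVec, dotProduct, Pi.zero_apply, star_sum, star_mul', star_zero] at h2
    rw [← h2]
    refine Finset.sum_congr rfl fun i _ => ?_
    rw [Pi.star_apply, mul_comm, hherm.apply i j]
  have hd : ∀ i, fderiv ℂ (fun z => MvPolynomial.eval (D.Z (e.symm z)) (H.P i) /
      MvPolynomial.eval (D.Z (e.symm z)) (H.P k)) (e x) (star u) = 0 := by
    intro i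
    have hin : h i / h k ∈ H212.kp D.K D.fm := div_mem (hh i) (hh k)
    have hreg : ∀ᶠ z in 𝓝 (e x), H212.RegAt D.fm (e.symm z) (h i / h k)
        (MvPolynomial.eval (D.Z (e.symm z)) (H.P i) /
          MvPolynomial.eval (D.Z (e.symm z)) (H.P k)) := by
      filter_upwards [hnear] with z hz
      have h1 := H.ratio hz i
      have h2 := h1.1.fm
      rwa [h1.2] at h2
    have h3 := H882.kp_flat hw hR hin hx hreg hr (star u) hv
    have h4 : DifferentiableAt ℂ (fun z => MvPolynomial.eval (D.Z (e.symm z)) (H.P i) /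
        MvPolynomial.eval (D.Z (e.symm z)) (H.P k)) (e x) := by
      have h5 := ((H.ratio hk i).1.eventually).2 e hx
      refine h5.differentiableAt.congr_of_eventuallyEq ?_
      filter_upwards [hnear] with z hz
      exact (H.ratio hz i).2.symm
    rw [sum_dz_eq h4] at h3
    exact h3
  have h6 := H223.beP_mulVec_star D H.P H.hP hk hx hd
  rwa [star_star] at h6

end Vale.Agent.P299.H760
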