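import Vale.Agent.P299.H760.Hom.Reg
import Vale.Agent.P299.H216.BrgI

/-!
# P299 / H760: the Levi form of `log Σ|h_i|²` on the model is the form `beP`
-/

set_option linter.all false

open Metric Filter Topology Set
open Vale.Agent.P272.K
open Vale.Agent.P282.L2 (Pol pev Prim)
open Vale.Agent.P299.H212 (Thin FM genF)
open Vale.Agent.P299.H340 (Mod Link)
open Vale.Agent.P299.H908
open Vale.Agent.P300.L2 (Sheets)
open scoped Manifold ContDiff Cardinal ComplexOrder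

noncomputable section

namespace Vale.Agent.P299.H760

variable {n : ℕ} {X : Type} [TopologicalSpace X] [ChartedSpace (Cm n) X] {D : ProjData n X}
  [PreconnectedSpace X] [Nonempty X] [CompactSpace X] [IsManifold 𝓘(ℂ, Cm n) ω X]
  [Algebra (Pol n) D.K] [IsScalarTower ℂ (Pol n) D.K] [FaithfulSMul (Pol n) D.K]
  [Algebra (FractionRing (Pol n)) D.K]
  [IsScalarTower (Pol n) (FractionRing (Pol n)) D.K]
  [FiniteDimensional (FractionRing (Pol n)) D.K]
  {A : Mod n D.K} {B : D.Den A.E} {r : ℕ} {h : Fin r → D.K}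

namespace HomRep

variable (H : HomRep D h)

lemma evP_dh {x : X} (hx : x ∈ D.Aff) (i : Fin r) :
    H223.evP D H.P (H223.dh D D.j0 x) i = D.ext (H.f i) x := by
  have hx' : D.Z x D.j0 ≠ 0 := hx
  rw [H223.dh_eq_smul, H223.evP_smul D H.P H.hP]
  show (D.Z x D.j0)⁻¹ ^ H.d * MvPolynomial.eval (D.Z x) (H.P i) = _
  rw [H.evP i x hx, ← mul_assoc, ← mul_pow, inv_mul_cancel₀ hx', one_pow, one_mul]

lemma val_ext {x : X} (hx : x ∈ D.Aff) (hg : D.ext H.g x ≠ 0) (i : Fin r) :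
    D.val (h i) x = D.ext (H.f i) x / D.ext H.g x := ProjData.val_eq hx hg (H.hf i)

/-- the sum of the squares of the values on the model -/
lemma sum_val (hg : A.IsReg (algebraMap D.R D.K H.g)⁻¹) (hreg : ∀ i, A.IsReg (h i))
    {q : (Fin n → ℂ) × ℕ} (hq : q ∈ A.S.M) :
    ∑ i, ‖A.val (h i) q‖ ^ 2 = H223.nsq (H223.evP D H.P (H223.dh D D.j0 (B.brg.j q))) /
      ‖D.ext H.g (B.brg.j q)‖ ^ 2 := by
  have hx : B.brg.j q ∈ B.X0 := B.brg.j_mem hq
  have hθ : ProjData.Den.th A (B.brg.j q) = q := B.brg.θ_j hq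
  have hg0 := ext_ne_of_reg (B := B) H.g0 hg hx
  have h1 : ∀ i, A.val (h i) q = D.ext (H.f i) (B.brg.j q) / D.ext H.g (B.brg.j q) := by
    intro i
    have h2 := B.val_th hx (hreg i)
    rw [hθ] at h2
    rw [h2, H.val_ext hx.1 hg0]
  unfold H223.nsq
  rw [Finset.sum_div]
  refine Finset.sum_congr rfl fun i _ => ?_
  rw [h1 i, H.evP_dh hx.1, norm_div, div_pow]

/-- **the Levi form** of `log Σ|h_i|²` on the model -/
theorem levi (hg : A.IsReg (algebraMap D.R D.K H.g)⁻¹) (hreg : ∀ i, A.IsReg (h i))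
    (hO : B.X0 ⊆ H223.OmP D H.P) {q : (Fin n → ℂ) × ℕ} (hq : q ∈ A.S.M) (β : Fin n → ℂ) :
    A.S.levi (fun q => Real.log (∑ i, ‖A.val (h i) q‖ ^ 2)) β q =
      B.brg.frm (H223.beP D H.P) β q := by
  obtain ⟨s, W, hs, z₀, hz, rfl⟩ := Sheets.exists_section' hq
  have he := B.brg.ce_at (z₀, s z₀)
  set e := B.brg.ce (z₀, s z₀) with hedef
  have hx : B.brg.j (z₀, s z₀) ∈ B.X0 := B.brg.j_mem hq
  set x := B.brg.j (z₀, s z₀) with hxdef
  set F : Cm n → Fin r → ℂ := fun w => H223.evP D H.P (H223.dh D D.j0 (e.symm w)) with hF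
  have hFa : ContDiffAt ℂ ω F (e x) := H223.evP_holo D H.P (H223.dh_holo D hx.1 he)
  have hF0 : F (e x) ≠ 0 := by
    show H223.evP D H.P (H223.dh D D.j0 (e.symm (e x))) ≠ 0
    rw [he.left_inv]
    exact (H223.evP_dh_ne D H.P H.hP hx.1).2 (hO hx)
  have hga : ContDiffAt ℂ ω (fun w => D.ext H.g (e.symm w)) (e x) :=
    (D.ext_holAt H.g hx.1 e he).contDiffAt
  have hg0 : (fun w => D.ext H.g (e.symm w)) (e x) ≠ 0 := by
    show D.ext H.g (e.symm (e x)) ≠ 0
    rw [he.left_inv]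
    exact ext_ne_of_reg H.g0 hg hx
  have h1 := B.brg.lc_analyticAt hs hz he
  have hS1 : ContDiffAt ℝ 2 (fun w => Real.log (H223.nsq (F w))) (e x) :=
    (H223.smooth_log_nsq hFa hF0).of_le H216.two_le_infty
  have hS2 : ContDiffAt ℝ 2 (fun w => Real.log (‖D.ext H.g (e.symm w)‖ ^ 2)) (e x) := by
    have h2 : ContDiffAt ℝ 2 (fun w => D.ext H.g (e.symm w)) (e x) :=
      (hga.restrict_scalars ℝ).of_le le_top
    exact (h2.norm_sq ℝ).log (pow_ne_zero 2 (norm_ne_zero_iff.2 hg0))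
  have hev : (fun z => Real.log (∑ i, ‖A.val (h i) (z, s z)‖ ^ 2)) =ᶠ[𝓝 z₀]
      fun z => (fun w => Real.log (H223.nsq (F w)) - Real.log (‖D.ext H.g (e.symm w)‖ ^ 2))
        (e (B.brg.j (z, s z))) := by
    filter_upwards [B.brg.lc_eventually hs hz he] with z hz'
    obtain ⟨h1, h2, h3, h4, h5⟩ := hz'
    have h6 : B.brg.j (z, s z) ∈ B.X0 := h3
    show _ = Real.log (H223.nsq (H223.evP D H.P (H223.dh D D.j0
      (e.symm (e (B.brg.j (z, s z))))))) - Real.log (‖D.ext H.g (e.symm (e (B.brg.j (z, s z))))‖ ^ 2)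
    rw [h4, H.sum_val (B := B) hg hreg (hs.mem_M h1), Real.log_div]
    · exact (H223.nsq_pos ((H223.evP_dh_ne D H.P H.hP h6.1).2 (hO h6))).ne'
    · exact pow_ne_zero 2 (norm_ne_zero_iff.2 (ext_ne_of_reg H.g0 hg h6))
  have hH : cHess (fun z => Real.log (∑ i, ‖A.val (h i) (z, s z)‖ ^ 2)) z₀ =
      (jmat (fun z => e (B.brg.j (z, s z))) z₀).transpose *
        H223.beP D H.P e (e x) *
        (jmat (fun z => e (B.brg.j (z, s z))) z₀).map (starRingEnd ℂ) := by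
    rw [cHess_congr hev]
    have h2 := cHess_comp (f := fun w => Real.log (H223.nsq (F w)) -
        Real.log (‖D.ext H.g (e.symm w)‖ ^ 2)) (τ := fun z => e (B.brg.j (z, s z)))
      (z := z₀) (hS1.sub hS2) (h1.contDiffAt (n := ω))
    rw [h2]
    congr 2
    show cHess (fun w => Real.log (H223.nsq (F w)) - Real.log (‖D.ext H.g (e.symm w)‖ ^ 2))
      (e x) = _
    rw [cHess_sub hS1 hS2, cHess_log_norm_sq hga hg0, sub_zero,
      H223.beP_eq D H.P H.hP (hO hx) hx.1 he]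
    rfl
  rw [H216.levi_eq_cHess hs hz]
  show (∑ j, ∑ k, cHess (fun z => Real.log (∑ i, ‖A.val (h i) (z, s z)‖ ^ 2)) z₀ j k * β j *
    (starRingEnd ℂ) (β k)).re = _
  rw [hH, H216.quad_conj, H216.Brg.lc_eq_inv hs hz he]
  rfl

end HomRep

end Vale.Agent.P299.H760
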