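import Vale.Agent.P299.H760.Hom.Out
import Vale.Agent.P299.H223.Pts
import Vale.Agent.P299.H223.ProjOf
import Vale.Agent.P299.H212.Bot
import Vale.Agent.P299.H223.Final

/-!
# P299 : Part II
-/

set_option linter.all false

open scoped Manifold ContDiff ComplexOrder Topology
open Vale.Agent.P272.K
open Vale.Agent.P299.D Vale.Agent.P299.H908
open Vale.Agent.P299.H340 (Mod)
open Vale.Agent.P282.L2 (Pol Prim)

noncomputable section

namespace Vale.Agent.P299.H760

theorem homProp {n : ℕ} {X : Type} [TopologicalSpace X] [T2Space X] [CompactSpace X]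
    [ConnectedSpace X] [ChartedSpace (Cm n) X] [IsManifold 𝓘(ℂ, Cm n) ω X]
    (D : ProjData n X) [Algebra (Pol n) D.K] [IsScalarTower ℂ (Pol n) D.K]
    [FaithfulSMul (Pol n) D.K] [Algebra (FractionRing (Pol n)) D.K]
    [IsScalarTower (Pol n) (FractionRing (Pol n)) D.K]
    [FiniteDimensional (FractionRing (Pol n)) D.K] : H223.HomProp D :=
  fun A B r h h1 h2 i h3 h4 => homProp_aux A B r h h1 h2 i h3 h4

/-- **Part II** -/
theorem partII : H223.PartIIStatement := by
  intro n X _ _ _ _ _ _ hX φ hφ hneg k hinf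
  obtain ⟨D⟩ := H223.nonempty_projData hX
  by_cases hbot : H212.kp D.K D.fm = ⊥
  · exact H212.bot_branch D hbot k hinf
  · refine H223.top_branch D hbot hφ hneg k hinf (homProp D) ?_
    intro _ _ _ _ _ _ k' _ _ _ ι
    exact H223.ptsProp D (H212.kp D.K D.fm) (fun f hf => ⟨⟨f, hf⟩, rfl⟩) ι hφ

end Vale.Agent.P299.H760
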