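import Vale.Agent.P299.H760.Hom.Ker
import Vale.Agent.P299.H760.Hom.Levi

/-!
# P299 / H760: homogeneous representatives of families of elements of `K'` (G-HOM)
-/

set_option linter.all false

open scoped Manifold ContDiff ComplexOrder Matrix Topology
open Vale.Agent.P272.K Filter Matrix
open Vale.Agent.P299.D Vale.Agent.P299.H908
open Vale.Agent.P299.H340 (Mod)
open Vale.Agent.P282.L2 (Pol Prim)

noncomputable section

namespace Vale.Agent.P299.H760

/-- **G-HOM** : `H223.HomProp`, unfolded -/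
theorem homProp_aux {n : ℕ} {X : Type} [TopologicalSpace X] [T2Space X] [CompactSpace X]
    [ConnectedSpace X] [ChartedSpace (Cm n) X] [IsManifold 𝓘(ℂ, Cm n) ω X]
    {D : ProjData n X} [Algebra (Pol n) D.K] [IsScalarTower ℂ (Pol n) D.K]
    [FaithfulSMul (Pol n) D.K] [Algebra (FractionRing (Pol n)) D.K]
    [IsScalarTower (Pol n) (FractionRing (Pol n)) D.K]
    [FiniteDimensional (FractionRing (Pol n)) D.K] :
    ∀ (A : Mod n D.K) (B : D.Den A.E) (r : ℕ) (h : Fin r → D.K),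
      (∀ i, h i ∈ H212.kp D.K D.fm) →
      (∀ i, A.IsReg (h i)) → ∀ i₀, h i₀ ≠ 0 → A.IsReg (h i₀)⁻¹ →
      ∃ (d : ℕ) (P : Fin r → MvPolynomial (Fin (D.N + 1)) ℂ), (∀ i, (P i).IsHomogeneous d) ∧
        (∀ w, IsKahler w → RicNonneg w → ∀ e x, At e x → x ∈ H223.OmP D P →
          (∀ e' y, At e' y → (ric w e' (e' y)).rank ≤ (ric w e (e x)).rank) →
          ∀ v, ric w e (e x) *ᵥ v = 0 → H223.beP D P e (e x) *ᵥ v = 0) ∧
        B.brg.Xo ⊆ H223.OmP D P ∧
        ∀ q ∈ A.S.M, ∀ β : Fin n → ℂ,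
          A.S.levi (fun q => Real.log (∑ l, ‖A.val (h l) q‖ ^ 2)) β q =
            B.brg.frm (H223.beP D P) β q := by
  intro A B r h hh hreg i₀ hi0 hi'
  obtain ⟨H, hg⟩ := exists_homRep_reg B hreg
  have hO : B.X0 ⊆ H223.OmP D H.P := H.X0_subset_OmP (B := B) hg hi0 (hreg i₀) hi'
  exact ⟨H.d, H.P, H.hP, fun w hw hR e x he hx hr v hv => H.ker hw hR hh he hx hr v hv, hO,
    fun q hq β => H.levi (B := B) hg hreg hO hq β⟩

end Vale.Agent.P299.H760
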