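import Vale.Agent.P299.H760.Hom.Rep

/-!
# P299 / H760: homogeneous representations adapted to a model of the function field
-/

set_option linter.all false

open Metric Filter Topology Set
open Vale.Agent.P272.K
open Vale.Agent.P282.L2 (Pol pev Prim)
open Vale.Agent.P299.H212 (Thin FM genF)
open Vale.Agent.P299.H340 (Mod Link)
open Vale.Agent.P299.H908
open scoped Manifold ContDiff Cardinal

noncomputable section

namespace Vale.Agent.P299.H760

variable {n : ℕ} {X : Type} [TopologicalSpace X] [ChartedSpace (Cm n) X] {D : ProjData n X}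
  [PreconnectedSpace X]

/-- the elements of `K` with a power of `b` as a denominator -/
def awB (b : D.R) : Subalgebra ℂ D.K where
  carrier := {a | ∃ (M : ℕ) (c : D.R), a * algebraMap D.R D.K (b ^ M) = algebraMap D.R D.K c}
  mul_mem' := by
    rintro a a' ⟨M, c, hc⟩ ⟨M', c', hc'⟩
    refine ⟨M + M', c * c', ?_⟩
    rw [map_mul, ← hc, ← hc', pow_add, map_mul]
    ring
  add_mem' := by
    rintro a a' ⟨M, c, hc⟩ ⟨M', c', hc'⟩
    refine ⟨M + M', c * b ^ M' + c' * b ^ M, ?_⟩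
    rw [map_add, map_mul, map_mul, ← hc, ← hc', pow_add, map_mul]
    ring
  algebraMap_mem' := by
    intro c
    refine ⟨0, algebraMap ℂ D.R c, ?_⟩
    rw [pow_zero, map_one, mul_one, IsScalarTower.algebraMap_apply ℂ D.R D.K]

lemma mem_awB {b : D.R} {a : D.K} : a ∈ awB b ↔
    ∃ (M : ℕ) (c : D.R), a * algebraMap D.R D.K (b ^ M) = algebraMap D.R D.K c := Iff.rfl

variable [Algebra (Pol n) D.K] [IsScalarTower ℂ (Pol n) D.K] [FaithfulSMul (Pol n) D.K]

section den

variable {E : Prim n D.K} (B : D.Den E)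

lemma zK_mem (i : Fin n) : D.zK i ∈ awB B.b := by
  refine mem_awB.2 ⟨1, B.zb i, ?_⟩
  rw [pow_one]
  exact B.hz i

lemma y_mem : E.y ∈ awB B.b := by
  refine mem_awB.2 ⟨1, B.yb, ?_⟩
  rw [pow_one]
  exact B.hy

lemma pol_mem (p : Pol n) : algebraMap (Pol n) D.K p ∈ awB B.b := by
  rw [ProjData.algebraMap_pol]
  induction p using MvPolynomial.induction_on with
  | C c =>
    rw [MvPolynomial.aeval_C]
    exact (awB B.b).algebraMap_mem c
  | add p q hp hq =>
    rw [map_add]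
    exact add_mem hp hq
  | mul_X p i hp =>
    rw [map_mul, MvPolynomial.aeval_X]
    exact mul_mem hp (zK_mem B i)

lemma aeval_mem (f : Polynomial (Pol n)) : Polynomial.aeval E.y f ∈ awB B.b := by
  induction f using Polynomial.induction_on' with
  | add p q hp hq =>
    rw [map_add]
    exact add_mem hp hq
  | monomial k c =>
    rw [Polynomial.aeval_monomial]
    exact mul_mem (pol_mem B c) (pow_mem (y_mem B) k)

end den

variable {A : Mod n D.K} (B : D.Den A.E)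

include B in
/-- regular elements have a power of a fixed element, a unit on the model, as a denominator -/
theorem exists_unit_den : ∃ g : D.R, g ≠ 0 ∧ A.IsReg (algebraMap D.R D.K g)⁻¹ ∧
    ∀ a : D.K, A.IsReg a → a ∈ awB g := by
  obtain ⟨m, hb, hhb⟩ := mem_awB.1 (pol_mem B A.E.h)
  have hE : algebraMap (Pol n) D.K A.E.h ≠ 0 := Prim.ev_aux_h A.E
  have hbK : algebraMap D.R D.K B.b ≠ 0 := by
    rw [ne_eq, FaithfulSMul.algebraMap_eq_zero_iff]
    exact B.b0
  have hhbK : algebraMap D.R D.K hb ≠ 0 := by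
    rw [← hhb, map_pow]
    exact mul_ne_zero hE (pow_ne_zero _ hbK)
  have hhb0 : hb ≠ 0 := by
    intro h0
    rw [h0, map_zero] at hhbK
    exact hhbK rfl
  refine ⟨B.b * hb, mul_ne_zero B.b0 hhb0, ?_, ?_⟩
  · rw [map_mul, mul_inv, ← hhb, map_pow, mul_inv, ← inv_pow]
    exact Mod.IsReg.mul B.regb (Mod.IsReg.mul (Mod.isReg_h_inv) (Mod.IsReg.pow B.regb m))
  · rintro a ⟨f, k, hf⟩
    obtain ⟨M, c, hc⟩ := mem_awB.1 (aeval_mem B f)
    refine mem_awB.2 ⟨k + M, c * B.b ^ (m * k) * B.b ^ k * hb ^ M, ?_⟩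
    rw [map_mul, map_mul, map_mul, ← hc, ← hf]
    simp only [map_pow, map_mul] at hhb ⊢
    rw [← hhb]
    ring

/-- finitely many elements have a common power as a denominator -/
lemma exists_pow_den {g : D.R} {r : ℕ} {h : Fin r → D.K} (hh : ∀ i, h i ∈ awB g) :
    ∃ (K : ℕ) (f : Fin r → D.R), ∀ i, h i * algebraMap D.R D.K (g ^ K) =
      algebraMap D.R D.K (f i) := by
  choose M c hc using fun i => mem_awB.1 (hh i)
  refine ⟨∑ i, M i, fun i => c i * g ^ (∑ i, M i - M i), fun i => ?_⟩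
  have h1 : M i ≤ ∑ i, M i := Finset.single_le_sum (f := fun i => M i)
    (fun _ _ => Nat.zero_le _) (Finset.mem_univ i)
  rw [map_mul, ← hc i, mul_assoc, ← map_mul, ← pow_add, Nat.add_sub_cancel' h1]

include B in
/-- **a homogeneous representation whose denominator is a unit on the model** -/
theorem exists_homRep_reg {r : ℕ} {h : Fin r → D.K} (hreg : ∀ i, A.IsReg (h i)) :
    ∃ H : HomRep D h, A.IsReg (algebraMap D.R D.K H.g)⁻¹ := by
  obtain ⟨g, g0, hg, hall⟩ := exists_unit_den B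
  obtain ⟨K, f, hf⟩ := exists_pow_den (g := g) (h := h) fun i => hall _ (hreg i)
  obtain ⟨H, hH⟩ := exists_homRep_of (D := D) (h := h) (g := g ^ K) (pow_ne_zero _ g0) f hf
  refine ⟨H, ?_⟩
  rw [hH, map_pow, ← inv_pow]
  exact Mod.IsReg.pow hg K

variable {B} in
lemma ext_ne_of_reg {g : D.R} (g0 : g ≠ 0) (hg : A.IsReg (algebraMap D.R D.K g)⁻¹) {x : X}
    (hx : x ∈ B.X0) : D.ext g x ≠ 0 := by
  have h1 := (B.reg_th hx hg).1
  have h2 := ProjData.regAt_algebraMap g hx.1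
  have h3 := (h1.mul h2).2
  have h4 : (algebraMap D.R D.K g)⁻¹ * algebraMap D.R D.K g = 1 := by
    rw [inv_mul_cancel₀]
    rw [ne_eq, FaithfulSMul.algebraMap_eq_zero_iff]
    exact g0
  rw [h4, ProjData.val_one hx.1, ProjData.val_algebraMap g hx.1] at h3
  intro h0
  rw [h0, mul_zero] at h3
  exact one_ne_zero h3

variable {B} in
lemma val_ne_of_reg {a : D.K} (a0 : a ≠ 0) (ha : A.IsReg a⁻¹) (hra : A.IsReg a) {x : X}
    (hx : x ∈ B.X0) : D.val a x ≠ 0 := by
  have h1 := (B.reg_th hx ha).1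
  have h2 := (B.reg_th hx hra).1
  have h3 := (h1.mul h2).2
  rw [inv_mul_cancel₀ a0, ProjData.val_one hx.1] at h3
  intro h0
  rw [h0, mul_zero] at h3
  exact one_ne_zero h3

namespace HomRep

variable {B} {r : ℕ} {h : Fin r → D.K} (H : HomRep D h)

lemma Q_ne_of_reg (hg : A.IsReg (algebraMap D.R D.K H.g)⁻¹) {x : X} (hx : x ∈ B.X0) :
    MvPolynomial.eval (D.Z x) H.Q ≠ 0 :=
  H.Q_ne_iff.2 ⟨hx.1, ext_ne_of_reg H.g0 hg hx⟩

lemma P_ne_of_reg (hg : A.IsReg (algebraMap D.R D.K H.g)⁻¹) {i : Fin r} (hi0 : h i ≠ 0)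
    (hi : A.IsReg (h i)) (hi' : A.IsReg (h i)⁻¹) {x : X} (hx : x ∈ B.X0) :
    MvPolynomial.eval (D.Z x) (H.P i) ≠ 0 := by
  intro h0
  have h1 := (H.val (H.Q_ne_of_reg hg hx) i).2
  rw [h0, zero_div] at h1
  exact val_ne_of_reg hi0 hi' hi hx h1

lemma X0_subset_OmP (hg : A.IsReg (algebraMap D.R D.K H.g)⁻¹) {i : Fin r} (hi0 : h i ≠ 0)
    (hi : A.IsReg (h i)) (hi' : A.IsReg (h i)⁻¹) : B.X0 ⊆ H223.OmP D H.P := fun x hx =>
  H.mem_OmP.2 ⟨i, H.P_ne_of_reg hg hi0 hi hi' hx⟩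

end HomRep

end Vale.Agent.P299.H760
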