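import Vale.Agent.P299.H223.Sec
import Vale.Agent.P299.H908.Bridge

/-!
# P299 / H760: homogeneous representation of finite families of rational functions
-/

set_option linter.all false

open Metric Filter Topology Set
open Vale.Agent.P272.K
open Vale.Agent.P282.L2 (Pol pev Prim)
open Vale.Agent.P299.H212 (Thin FM genF)
open Vale.Agent.P299.H340 (Mod Link)
open Vale.Agent.P299.H908
open scoped Manifold ContDiff Cardinal

noncomputable section

namespace Vale.Agent.P299.H760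

variable {n : ℕ} {X : Type} [TopologicalSpace X] [ChartedSpace (Cm n) X] (D : ProjData n X)

/-- homogenisation with respect to `Z_{j0}` -/
def hmg (d : ℕ) (p : MvPolynomial (Fin (D.N + 1)) ℂ) : MvPolynomial (Fin (D.N + 1)) ℂ :=
  ∑ α ∈ p.support, MvPolynomial.monomial
    (α + Finsupp.single D.j0 (d - α.sum fun _ k => k)) (p.coeff α)

lemma hmg_homogeneous {d : ℕ} {p : MvPolynomial (Fin (D.N + 1)) ℂ} (hd : p.totalDegree ≤ d) :
    (hmg D d p).IsHomogeneous d := by
  refine MvPolynomial.IsHomogeneous.sum _ _ _ fun α hα => ?_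
  refine MvPolynomial.isHomogeneous_monomial _ ?_
  have h3 : (α.sum fun _ k => k) ≤ d := (MvPolynomial.le_totalDegree hα).trans hd
  have h4 : α.degree = α.sum fun _ k => k := rfl
  rw [map_add, Finsupp.degree_single, h4, Nat.add_sub_cancel' h3]

lemma eval_hmg (d : ℕ) (p : MvPolynomial (Fin (D.N + 1)) ℂ) (v : Fin (D.N + 1) → ℂ) :
    MvPolynomial.eval v (hmg D d p) = ∑ α ∈ p.support, p.coeff α *
      ((∏ i ∈ α.support, v i ^ α i) * v D.j0 ^ (d - α.sum fun _ k => k)) := by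
  unfold hmg
  rw [map_sum]
  refine Finset.sum_congr rfl fun α hα => ?_
  rw [MvPolynomial.eval_monomial, Finsupp.prod_add_index' (by simp) (by simp [pow_add]),
    Finsupp.prod_single_index (by simp)]
  rfl

lemma eval_hmg_aff {d : ℕ} {p : MvPolynomial (Fin (D.N + 1)) ℂ} (hd : p.totalDegree ≤ d) {x : X}
    (hx : x ∈ D.Aff) : MvPolynomial.eval (D.Z x) (hmg D d p) =
      D.Z x D.j0 ^ d * MvPolynomial.eval (fun i => D.xi i x) p := by
  have hx' : D.Z x D.j0 ≠ 0 := hx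
  rw [eval_hmg, MvPolynomial.eval_eq, Finset.mul_sum]
  refine Finset.sum_congr rfl fun α hα => ?_
  have h2 : ∀ i, D.Z x i = D.xi i x * D.Z x D.j0 := by
    intro i
    simp only [ProjData.xi]
    field_simp
  have h3 : (α.sum fun _ k => k) ≤ d := (MvPolynomial.le_totalDegree hα).trans hd
  have h4 : ∏ i ∈ α.support, D.Z x i ^ α i =
      (∏ i ∈ α.support, D.xi i x ^ α i) * D.Z x D.j0 ^ (α.sum fun _ k => k) := by
    rw [Finsupp.sum, ← Finset.prod_pow_eq_pow_sum, ← Finset.prod_mul_distrib]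
    refine Finset.prod_congr rfl fun i _ => ?_
    rw [h2 i, mul_pow]
  rw [h4, mul_assoc (∏ i ∈ α.support, D.xi i x ^ α i), ← pow_add, Nat.add_sub_cancel' h3]
  ring

lemma eval_hmg_out {d : ℕ} {p : MvPolynomial (Fin (D.N + 1)) ℂ} (hd : p.totalDegree < d) {x : X}
    (hx : x ∉ D.Aff) : MvPolynomial.eval (D.Z x) (hmg D d p) = 0 := by
  have hx' : D.Z x D.j0 = 0 := by
    by_contra h
    exact hx h
  rw [eval_hmg]
  refine Finset.sum_eq_zero fun α hα => ?_
  have h3 : (α.sum fun _ k => k) < d := (MvPolynomial.le_totalDegree hα).trans_lt hd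
  rw [hx', zero_pow (by omega), mul_zero, mul_zero]

variable [PreconnectedSpace X]

/-- **Homogeneous representation** of the family `h` : `h_i = P_i(Z) / Q(Z)`; all the polynomials
are divisible by `Z_{j0}` on `X`. -/
structure HomRep {r : ℕ} (h : Fin r → D.K) where
  d : ℕ
  P : Fin r → MvPolynomial (Fin (D.N + 1)) ℂ
  Q : MvPolynomial (Fin (D.N + 1)) ℂ
  hP : ∀ i, (P i).IsHomogeneous d
  hQ : Q.IsHomogeneous d
  /-- the common denominator -/
  g : D.R
  g0 : g ≠ 0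
  /-- the numerators -/
  f : Fin r → D.R
  hf : ∀ i, h i * algebraMap D.R D.K g = algebraMap D.R D.K (f i)
  evQ : ∀ x ∈ D.Aff, MvPolynomial.eval (D.Z x) Q = D.Z x D.j0 ^ d * D.ext g x
  evP : ∀ i, ∀ x ∈ D.Aff, MvPolynomial.eval (D.Z x) (P i) = D.Z x D.j0 ^ d * D.ext (f i) x
  outQ : ∀ x, x ∉ D.Aff → MvPolynomial.eval (D.Z x) Q = 0
  outP : ∀ i, ∀ x, x ∉ D.Aff → MvPolynomial.eval (D.Z x) (P i) = 0

variable {D}

/-- a homogeneous representation from a common denominator -/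
theorem exists_homRep_of {r : ℕ} {h : Fin r → D.K} {g : D.R} (g0 : g ≠ 0) (f : Fin r → D.R)
    (hf : ∀ i, h i * algebraMap D.R D.K g = algebraMap D.R D.K (f i)) :
    ∃ H : HomRep D h, H.g = g := by
  obtain ⟨q, hq⟩ := D.exists_poly g
  choose p hp using fun i => D.exists_poly (f i)
  let d := q.totalDegree + ∑ i, (p i).totalDegree + 1
  have hdq : q.totalDegree < d := by
    show q.totalDegree < q.totalDegree + ∑ i, (p i).totalDegree + 1
    omega
  have hdp : ∀ i, (p i).totalDegree < d := fun i => by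
    have := Finset.single_le_sum (f := fun i => (p i).totalDegree) (fun _ _ => Nat.zero_le _)
      (Finset.mem_univ i)
    show (p i).totalDegree < q.totalDegree + ∑ i, (p i).totalDegree + 1
    omega
  exact ⟨{ d := d
           P := fun i => hmg D d (p i)
           Q := hmg D d q
           hP := fun i => hmg_homogeneous D (hdp i).le
           hQ := hmg_homogeneous D hdq.le
           g := g
           g0 := g0
           f := f
           hf := hf
           evQ := fun x hx => by rw [eval_hmg_aff D hdq.le hx, hq x hx]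
           evP := fun i x hx => by rw [eval_hmg_aff D (hdp i).le hx, hp i x hx]
           outQ := fun x hx => eval_hmg_out D hdq hx
           outP := fun i x hx => eval_hmg_out D (hdp i) hx }, rfl⟩

theorem exists_homRep {r : ℕ} (h : Fin r → D.K) : Nonempty (HomRep D h) := by
  obtain ⟨b, hb⟩ := IsLocalization.exist_integer_multiples_of_finite (nonZeroDivisors D.R) h
  choose f hf using hb
  obtain ⟨H, -⟩ := exists_homRep_of (D := D) (h := h) (g := (b : D.R))
    (nonZeroDivisors.ne_zero b.2) f (fun i => by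
      rw [hf i, Algebra.smul_def, mul_comm])
  exact ⟨H⟩

namespace HomRep

variable {r : ℕ} {h : Fin r → D.K} (H : HomRep D h)

lemma aff_of_Q {x : X} (hx : MvPolynomial.eval (D.Z x) H.Q ≠ 0) : x ∈ D.Aff := by
  by_contra h0
  exact hx (H.outQ x h0)

lemma aff_of_P {i : Fin r} {x : X} (hx : MvPolynomial.eval (D.Z x) (H.P i) ≠ 0) : x ∈ D.Aff := by
  by_contra h0
  exact hx (H.outP i x h0)

lemma Q_ne_iff {x : X} : MvPolynomial.eval (D.Z x) H.Q ≠ 0 ↔ x ∈ D.Aff ∧ D.ext H.g x ≠ 0 := by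
  constructor
  · intro h0
    have hx := H.aff_of_Q h0
    rw [H.evQ x hx] at h0
    exact ⟨hx, right_ne_zero_of_mul h0⟩
  · rintro ⟨hx, h0⟩
    rw [H.evQ x hx]
    exact mul_ne_zero (pow_ne_zero _ hx) h0

lemma P_ne_iff {i : Fin r} {x : X} :
    MvPolynomial.eval (D.Z x) (H.P i) ≠ 0 ↔ x ∈ D.Aff ∧ D.ext (H.f i) x ≠ 0 := by
  constructor
  · intro h0
    have hx := H.aff_of_P h0
    rw [H.evP i x hx] at h0
    exact ⟨hx, right_ne_zero_of_mul h0⟩
  · rintro ⟨hx, h0⟩
    rw [H.evP i x hx]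
    exact mul_ne_zero (pow_ne_zero _ hx) h0

lemma mem_OmP {x : X} : x ∈ H223.OmP D H.P ↔ ∃ i, MvPolynomial.eval (D.Z x) (H.P i) ≠ 0 := by
  show H223.evP D H.P (D.Z x) ≠ 0 ↔ _
  constructor
  · intro h0
    by_contra hc
    push Not at hc
    exact h0 (funext hc)
  · rintro ⟨i, hi⟩ h0
    exact hi (congrFun h0 i)

lemma OmP_subset : H223.OmP D H.P ⊆ D.Aff := fun x hx => by
  obtain ⟨i, hi⟩ := H.mem_OmP.1 hx
  exact H.aff_of_P hi

/-- the values of `h_i` -/
theorem val {x : X} (hx : MvPolynomial.eval (D.Z x) H.Q ≠ 0) (i : Fin r) :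
    D.RegAt (h i) x ∧ D.val (h i) x =
      MvPolynomial.eval (D.Z x) (H.P i) / MvPolynomial.eval (D.Z x) H.Q := by
  obtain ⟨hxa, hg⟩ := H.Q_ne_iff.1 hx
  refine ⟨⟨hxa, H.f i, H.g, hg, H.hf i⟩, ?_⟩
  rw [ProjData.val_eq hxa hg (H.hf i), H.evQ x hxa, H.evP i x hxa,
    mul_div_mul_left _ _ (pow_ne_zero _ hxa)]

theorem Qne : ∃ x ∈ D.Aff, MvPolynomial.eval (D.Z x) H.Q ≠ 0 := by
  obtain ⟨x, hx⟩ := D.aff_nonempty
  obtain ⟨y, -, hya, hy⟩ := D.exists_ne_of_ne H.g0 hx univ_mem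
  exact ⟨y, hya, H.Q_ne_iff.2 ⟨hya, hy⟩⟩

lemma f_ne {i : Fin r} (hi : h i ≠ 0) : H.f i ≠ 0 := by
  intro h0
  have h1 := H.hf i
  rw [h0, map_zero, mul_eq_zero] at h1
  rcases h1 with h1 | h1
  · exact hi h1
  · rw [FaithfulSMul.algebraMap_eq_zero_iff] at h1
    exact H.g0 h1

lemma h_ne {i : Fin r} (hi : H.f i ≠ 0) : h i ≠ 0 := by
  intro h0
  have h1 := H.hf i
  rw [h0, zero_mul] at h1
  have h2 := h1.symm
  rw [FaithfulSMul.algebraMap_eq_zero_iff] at h2
  exact hi h2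

theorem Pne {i : Fin r} (hi : h i ≠ 0) : ∃ x ∈ D.Aff, MvPolynomial.eval (D.Z x) (H.P i) ≠ 0 := by
  obtain ⟨x, hx⟩ := D.aff_nonempty
  obtain ⟨y, -, hya, hy⟩ := D.exists_ne_of_ne (H.f_ne hi) hx univ_mem
  exact ⟨y, hya, H.P_ne_iff.2 ⟨hya, hy⟩⟩

/-- the values of the ratios `h_i / h_k` -/
theorem ratio {x : X} {k : Fin r} (hx : MvPolynomial.eval (D.Z x) (H.P k) ≠ 0) (i : Fin r) :
    D.RegAt (h i / h k) x ∧ D.val (h i / h k) x =
      MvPolynomial.eval (D.Z x) (H.P i) / MvPolynomial.eval (D.Z x) (H.P k) := by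
  obtain ⟨hxa, hfk⟩ := H.P_ne_iff.1 hx
  have hfk0 : H.f k ≠ 0 := by
    intro h0
    rw [h0, D.ext_zero] at hfk
    exact hfk rfl
  have hk : h k ≠ 0 := H.h_ne hfk0
  have h1 : h i / h k * algebraMap D.R D.K (H.f k) = algebraMap D.R D.K (H.f i) := by
    rw [← H.hf k, ← H.hf i]
    field_simp
  refine ⟨⟨hxa, H.f i, H.f k, hfk, h1⟩, ?_⟩
  rw [ProjData.val_eq hxa hfk h1, H.evP i x hxa, H.evP k x hxa,
    mul_div_mul_left _ _ (pow_ne_zero _ hxa)]

section thin

variable [IsManifold 𝓘(ℂ, Cm n) ω X]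

theorem thin : Thin (n := n) {x : X | MvPolynomial.eval (D.Z x) H.Q = 0} := by
  refine (D.thin_ext H.g0).mono ?_
  intro x hx hx0
  exact H.Q_ne_iff.2 hx0 hx

theorem thin_P {i : Fin r} (hi : h i ≠ 0) :
    Thin (n := n) {x : X | MvPolynomial.eval (D.Z x) (H.P i) = 0} := by
  refine (D.thin_ext (H.f_ne hi)).mono ?_
  intro x hx hx0
  exact H.P_ne_iff.2 hx0 hx

end thin

end HomRep

end Vale.Agent.P299.H760
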